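import Vale.Agent.P275.H341.Psh

/-! # P275, lowest degree: row A1 (the hook polynomial of the partition with one part) -/

namespace Vale.Agent.P275.R2.H286

open Filter Topology Asymptotics Vale.Agent.P275.H341

/-- the partition with one part -/
def row1 (k : ℕ) : Fin k → ℕ := fun i => if (i : ℕ) = 0 then k else 0

theorem row1_mem (k : ℕ) : row1 k ∈ Pt k := by
  unfold Pt
  rw [Finset.mem_filter, Finset.Nat.mem_antidiagonalTuple]
  refine ⟨?_, ?_⟩
  · cases k with
    | zero => simp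
    | succ m =>
      rw [Fin.sum_univ_succ]
      simp [row1]
  · intro i j hij
    unfold row1
    by_cases hj : (j : ℕ) = 0
    · have hi : (i : ℕ) = 0 := by
        have : (i : ℕ) ≤ j := hij
        omega
      simp [hi, hj]
    · simp [hj]

theorem jt_row1 (u : ℕ → ℂ) (h0 : u 0 = 1) (k : ℕ) : jt u (row1 k) = u k := by
  unfold jt
  rw [Matrix.det_of_isUpperTriangular]
  · cases k with
    | zero => simp [h0]
    | succ m =>
      rw [Fin.prod_univ_succ]
      simp [row1, h0]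
  · intro i j hij
    have hlt : (j : ℕ) < i := hij
    have hi : (i : ℕ) ≠ 0 := by omega
    simp only [Matrix.of_apply, row1, hi, if_false]
    rw [if_neg (by omega)]

/-- ROW A1 -/
theorem rowA1 (H8 : RowA8) (q : ℂ) (hq : q ≠ 0) (h1 : ∀ n, 0 < n → q ^ n ≠ 1) (k : ℕ) :
    row1 k ∈ Pt k ∧ hk q (row1 k) = ∏ i ∈ Finset.range k, (q ^ (i + 1) - 1) := by
  refine ⟨row1_mem k, ?_⟩
  have h := H8 q hq h1 k (row1 k) (row1_mem k)
  rw [jt_row1 _ (by simp) k, Finset.prod_inv_distrib] at h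
  have hne : (∏ i ∈ Finset.range k, (q ^ (i + 1) - 1)) ≠ 0 := by
    rw [Finset.prod_ne_zero_iff]
    intro i _
    exact sub_ne_zero.mpr (h1 (i + 1) (by omega))
  field_simp at h
  exact h

/-- literal form of `Vale.Agent.P275.H490.RowONE` -/
theorem rowONE (A8 : RowA8) : ∀ (k : ℕ), 1 ≤ k → ∀ (q : ℂ), q ≠ 0 → (∀ n, 0 < n → q ^ n ≠ 1) →
    hk q (fun i : Fin k => if (i : ℕ) = 0 then k else 0)
      = ∏ t ∈ Finset.range k, (q ^ (t + 1) - 1) :=
  fun k _ q hq h1 => (rowA1 A8 q hq h1 k).2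

end Vale.Agent.P275.R2.H286
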